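/-!
# Row 246 (Solomon–Yau): blueprint (owner helper1)

Notation: `finrank E = n = d+1`, `m = d-1`, `C` cone over the link `Σ^m ⊂ S^{m+1}`, `ψ` signed
distance to `C`, `ν = ∇ψ`, `hess ψ = -A`, `P = prj ν`, `x̂ = x/|x|`, `G = gk d p r`.
All areas are Gaussian densities (`th`, plane = 1, cone over `Σ` = `|Σ|/|S^m|`).
`Asm.lean` (done) derives the theorem from the `St*` of `Defs.lean`; `X/Main.lean` holds the final
statement(s) of block `X`.  Global logic: `Sweep Λ` = an (m+3)-family of level sets of density `≤ Λ`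
filling the family of round spheres.  T1: a non-flat smooth minimal cone has `Sweep (Th C)`.
A+B: min-max gives a class cone `V` of density `w > 1`, `w ≤ Λ` for every sweep.  C2+D+F (induction
on `d`): `V` is a smooth cone `C*` with `Th C* = w`.  P: a negative direction of `Q` orthogonal to
affine functions would give a sweep below `w`.  H: so `C*` is a Clifford cone.

## A (`stCrit`): Allen–Cahn min-max on the sphere, no Sobolev spaces, no flows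
Functions on the sphere = `0`-homogeneous functions on `E∖0`; `avg f = E f(g)`, `g` Gaussian (or
`R230.Sph`: `sg n`, polar coordinates, IBP on the sphere); `En = c ∫_S (ε|∇u|²/2 + W̃(u)/ε)`.
* Truncated potential: `W̃ = W` on `[-1,1]`, `(u∓1)²` outside; `W̃' u = 2u - g u`,
  `g u = 3c - c³`, `c = clamp u`; `g` is C¹, bounded, monotone, so `𝒢 = ∫g` is convex and
  `ε E(u) = ½‖u‖_H² - ∫𝒢(u) + const`, `‖u‖_H² = ∫ ε²|∇u|² + 2u²`.
* Resolvent `K = (-ε²Δ_S + 2)⁻¹ : C⁰ → C¹` by the Poisson kernel `Pk(x,z) = (1-|x|²)/|x-z|^n`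
  (harmonic in `x`; `|D_x Pk| ≤ c Pk/(1-|x|)`; `avg_z Pk = 1`: it is radial and
  `h_ss - (n-2)h_s = -Δ_S h` has zero average, `h_s(y) = h(e^{-s}y)`, bounded ⇒ constant).
  `K f (y) = ε⁻² ∫_0^∞ ρ(s) h_s(y) ds`, `ρ = e^{-(n-2)s/2} sin(θ s)/θ`, `ρ''+(n-2)ρ'+λρ = 0`,
  `λ = 2/ε² = ((n-2)/2)²+θ²` (small `ε`), `ρ(0)=0, ρ'(0)=1`.  `‖∇h_s‖ ≤ c‖f‖/s` and `|ρ| ≤ s` give
  `‖Kf‖_{C¹} ≤ c‖f‖_∞`.  Weak identity `⟨Kf,φ⟩_H = ∫ fφ` for C¹ `φ`: IBP on the sphere for `h_s`,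
  then 1-D IBP for `a(s) = ∫ h_s φ = ∫ f P_sφ` (`s a'(s) → 0` as `φ` is Lipschitz).
  Regularity: `K` commutes with rotations, so `X_{ij} K f = K X_{ij} f` for C¹ `f`, and
  `|y|² ∂_i v = Σ_j y_j X_{ji} v`; a fixed point `u = K g(u)` is C², solves the equation, `|u| ≤ 1`
  by the maximum principle, then `g(u) = 3u-u³` and induction gives C^∞.
* Iteration `S u = K g(u)` (C⁰-continuous): convexity of `𝒢` gives
  `E(u + h(Su-u)) ≤ E u - (h-h²/2)‖Su-u‖_H²/ε`, `h ∈ [0,1]`.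
* Gap (Pisier's trick): if `avg u = 0`, `avg (u ŷ) = 0`, `En u ≤ 2` and `ε` small then
  `En u ≥ 1+δ₀`.  `v = Ψ(clamp u)`, `Ψ' = √(2W)`, `σ ed ≥ |∇v|`.  `g₁,g₂` independent Gaussians,
  `a = g₁cos t + g₂ sin t`, `b = ∂_t a` (measure preserving on `E×E`), weight `|g₁+g₂|² =
  |a|²(1+sin 2t)+|b|²(1-sin 2t)+2⟪a,b⟫cos 2t`:  `E|g₁+g₂|²|v g₁ - v g₂| ≤ (πn-2) E|b₁| E|∇v(g)|`
  (`E|a| = (n-1)E|a|⁻¹`, `E|b|²|b₁| = (n+1)E|b₁|`, `E|b₁| = √(2/π)`, the cross term is odd in the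
  `a`-component of `b`); `|v-v'| ≥ (σ/4)(u-u')² - c(√W(u)+√W(u'))`,
  `E|g₁+g₂|²(u g₁ - u g₂)² = 4n E u²`, `avg W ≤ cε`; `En ≥ √(2π)E|∇v(g)|/σ ≥ πn/(πn-2) - o(1)`.
* Admissible: `γ : closedBall (0 : ℝ×E or WithLp 2) 1 →` C¹ functions, C⁰-continuous,
  `En ≤ a := 1+δ₀/2` on the boundary sphere, and `Φ∘γ|∂` *essential* (`Φ u = (avg u, avg u ŷ)`;
  essential = every continuous extension to the ball has a zero; invariant under nonvanishing
  homotopies by a collar; `-id` is essential by `Lib.Brouwer`).  `c_ε = inf sup En ≥ 1+δ₀`.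
  `S∘γ` is admissible.  PS: for near-optimal `γ`, `N`, some `z` has `En(S^N γ z) ≥ c - 1/N`, so
  some `k ≥ 1` has `‖S^{k+1}-S^k‖_H` small and energy in `[c-.., c+..]`; `S^kγ z ∈ K(bounded)` is
  equi-Lipschitz; Arzelà–Ascoli (or an ultrafilter limit), `K : C⁰ → C¹` continuous ⇒ `u = Su`,
  `En u = c_ε`.
* From `Sweep Λ`: `u_{b,t} = P_δ tanh((D b - t)/(ε√2))`, `z = (τ,b')`, `b = β·proj_ball(√2 b')`,
  `t = π·clamp(√2τ)`.  Energy of `H∘D` with upper gradient `H'(D)`: density `≤ G_ε(D-t)/|y|`,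
  `G_ε = 2W(H)/(εσ)`, `∫G_ε = 1`; smoothing: `|∇P_δu| ≤ P_δ(lip u)` via rotations + Jensen +
  uniform continuity.  Faces `t = ±π`: energy `≤ Λ∫_{|s|<π/2}G_ε(s∓π)` small; side `|b| = β → 1`:
  `D b → -arcsin⟪e,ŷ⟫` uniformly and the plane case has constant `1` (Fubini, `y_e = |y'|tan s`).
  `⟪Φ u, (-sin t̄, -b)⟫ > 0` on the boundary (`t̄ = clamp t to ±π/2`).
  So `c_ε ≤ Λ + o(1)`; take `ε_j → 0` with `c_{ε_j} → w`.

## B1 (`stAC`, `stLim`)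
* Modica: `Pf = ε²|∇_S u|²/2 - W(u)` at a positive maximum on the sphere; `|∇u|² = Σ_{i<j}(X_{ij}u)²`,
  `X_{ij}u` solves the linearised equation, Cauchy–Schwarz `Σ⟪∇X_{ij}u,n⟫² ≥ ⟪∇|∇u|²/2,n⟫²/|∇u|²`;
  gives `ΔPf ≥ 0` only, so perturb: maximise `Pf - ... ` as usual, e.g. use `Ric > 0`
  (`½Δ_S|∇u|² = |∇²u|² + ⟪∇u,∇Δu⟫ + m|∇u|²`; in `E`: `½Δ|Du|² = |D²u|² + ⟪Du,DΔu⟫`, homogeneity
  `-2` of `|Du|²`, `D²u(ŷ,·) = -Du/|y|` supply the strictly positive term).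
* Stress identity: `T = ê I - ε|y| Du⊗Du`, `div T = -(1-|w|²) ê y/|y|²`; IBP in `E` with cutoffs at
  `0` (`ê ≲ 1/|y|`, `d ≥ 2`) and `∞`.  Monotonicity: `X = (y-p)G` gives
  `r ∂_r th = ∫⟪w,y-p⟫²G/r² + ∫(1-|w|²)G⟪p,y⟫/|y|²`.
* Limit: `StComp` along `hyperfilter ℕ`; `s y = lim sign(u_j y)`; `κ = 1-|w|² = 0` a.e.:
  `λ = κμ` has `liminf_{r→0} th(λ,p,r) = 0` at every `p ≠ 0` (last item of `StAC`), `μ` has
  `c ≤ th ≤ K w` on its support; Vitali (`Vitali.exists_disjoint_subfamily_covering_enlargement`)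
  ⇒ `λ = 0` (`μ{0} = 0`).  Then the identity becomes `Stat` (error `≤ ∫κ|X|/|y|`), `StCone` gives
  `upper`.  Clearing out: if `|u| ≥ 1-τ₀` on `B_r(p)`, test the equation with `W'(u)φ²` ⇒ energy
  `→ 0` on `B_{r/2}`; if `|u z| ≤ 1-τ₀`, Modica's gradient bound gives `W ≥ c` on `B_{cε|z|}(z)`,
  so `th(z, ε|z|) ≥ c`, monotonicity ⇒ `Lower c`, and `Col`.  `Quant` from `StQ` + `StCacc`.

## B2 (`stQ`) (helper1)
Vitali for bad points, dyadic-band pigeonhole for the energy in `{|u| > 1-τ}`, compactness lemma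
(1-D limit is `±tanh`), two-point monotonicity with a horizontal cut, constancy along the plane.

## C1 (`bas`)
`StStatG`: cutoffs.  `StMono`: `X = (y-p)G`, differentiate under the integral.  `StCone`: `X = φ(y/t) y`;
`th(p,R) = th(p/R,1) → th(0,1)`.  `StComp`: RMK for `φ ↦ lim_𝒰 ∫φ` on `C_c(E×E)` (see `R85/Lim`),
tails by `gk 0 r ≤ o(1) gk 0 (2r)` at infinity.  `StCacc`: `X = ⟪e,y-p⟫ G e`, Cauchy–Schwarz.
`StConst`: `X = φ⟪e,y⟫e` ⇒ `w = ±e`; `X = φ a`, `a ⊥ e` ⇒ translation invariance ⇒ Haar uniqueness.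

## C2 (`stOne`, `stFlat`, `stK0`, `stTan`)
Rescaling `V ↦ map ((y-p)/r, w) (r^{-d}V)`; blow-up lemma: limits (`StComp`) of rescalings
`(p_j, r_j)`, `r_j/|p_j| → 0`, of a `Cls` are `Cls` with *unrestricted* `Quant`
(`s∞ y = lim s(p_j + r_j y)`; supports converge locally in Hausdorff distance by `Lower c` and
`upper`).  `stOne`: `θ₀ = inf` of densities `Θ(p) = lim_{r→0} th`, `p ≠ 0`; blow up where
`th(p_j, j r_j) ≤ θ₀ + 1/j`; the limit has `th ≡ θ₀` on its support, so `⟪w,y-q⟫ = 0` for all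
`q ∈ spt`; the span of `spt` is a proper subspace ⇒ inside a hyperplane; `hx = 0`, `Quant` ⇒
`θ₀ ≥ 1`.  `stTan`: blow up at fixed `p`: `VCone` (constant `th`), `⟪w,p⟫ = 0`, `μ` invariant along
`e = p̂` (`X = φ e`), `μ = μ' ⊗ Leb` (Haar uniqueness), `V' = map (π y, π w) (g(⟪e,y⟫) V)` with a
Gaussian `g`, stationary because `⟪w,e⟫ = 0`; Gaussian ratios and `hx` are exactly products.

## D (`stAll`): Allard via weighted monotonicity (De Philippis–Gasparetto–Schulze) + Weyl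
`Δ_V φ := lap φ - ⟪w, hess φ w⟫`; `∫ fΔ_Vχ = ∫ χΔ_V f` (test `f∇χ - χ∇f`).  With `t = r²/2`,
`(∂_t - Δ_V)G ≥ 0`, so for convex `f ≥ 0` and a cutoff `ζ`:
`f(q) ≤ ∫ fζG_{q,r} + c sup|f| e^{-c/r²}` (`q ∈ spt`, uses `Lower 1`).
*Harnack*: `spt ∩ B_1 ⊂ {|h| ≤ ε}` ⇒ osc of `h` on `spt ∩ B_κ` is `≤ 2(1-η)ε`: otherwise
`f_± ≈ (±h/ε)_+`, `f_+ + f_- ≤ 1`, `G_{q,r} ≤ (1+η)G_{0,(1+η)r}` give `2(1-η') ≤ Θ`.
*Improvement of flatness* by contradiction (`StComp`): `ε_j → 0`; limit = `θ·plane` on a ball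
(localise `StConst`, or blow up with `V_j` restricted by cutoffs: prove a local constancy lemma);
`h/ε_j` on `spt V_j` converges (iterated Harnack ⇒ Hölder modulus above scale `ε_j^γ`) to a
continuous `u` on the disc with `∫ u Δχ = 0` (`∫ hΔ_Vχ = 0` as `h` is affine); mean value property
⇒ `|u x - u 0 - ⟪a,x⟫| ≤ c|x|²`.  Iterate at all `q ∈ spt` near `p`: `ν(q)` Hölder,
`|⟪ν q, q'-q⟫| ≤ K|q'-q|^{1+α}`; graph over `ν(p)^⊥`; surjectivity: at every flat scale every point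
of the disc is `o(1)`-close to `spt` (compactness + constancy), nearest-point argument.

## F1 (`stSch`): Schauder
Shrink so that `|g| ≤ η`.  Heat-kernel estimate on `E`: `W` compactly supported C^{1,α},
`ΔW = div F + H` weakly ⇒ `[∇W]_α ≤ c([F]_α + ‖H‖_∞ + ‖W‖_∞)` (`W_t = G_t * W`,
`|∂_t D²W_t| ≤ c t^{(α-3)/2}`, `|∂_t ∇W_t| ≤ c t^{(α-2)/2}`).  Interior version with a cutoff,
`Δw = div((I-a)∇w + f)`, absorb with the weighted seminorm `sup d^{1+α}[∇w]`.  Difference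
quotients: `v ∈ C^{2,α}`; linear induction `L(k)`: `a, f ∈ C^{k,α}`, `w ∈ C^{1,α}` ⇒
`w ∈ C^{k+1,α}` (recursive Hölder classes closed under products and smooth superposition).

## F2 (`stDist`, `stReg`; prove `StSm` first)
Density `1` at graph points: rescalings at `q` converge to a multiple of the tangent plane
(`StComp`, `StConst`) or directly `hx → 0`; `Quant` with `1 ≤ th ≤ Θ < 2`.  `μ = ar` near `p`:
project to the base, `μ' ≪ Leb`, Lebesgue points, `StArea`.  `w = ±ν` a.e.: test `X = φ F a`,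
`F = ⟪e,y-p⟫ - v(π(y-p))` (C¹).  Weak equation: `X = φ(π y)χ e`.  `StSch` ⇒ smooth ⇒ strong
equation.  Colours: `Quant` at small `r`, sub/supergraph are connected.  `stDist`: inverse function
theorem for `(x,τ) ↦ Γ x + τ N x`, nearest point argument, `∇τ = N`.

## G1 (`geo`)
`StArea`: local `(1±η)`-bi-Lipschitz comparison with the derivative
(`LinearMap.euclideanHausdorffMeasure_image_eq_normDet_mul_volume`, `ApproximatesLinearOn`,
`exists_partition_approximatesLinearOn_of_hasFDerivWithinAt`).  `StSMC`: implicit function theorem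
gives smooth graph patches; IBP in the graph chart (`div(∇v/√(1+|∇v|²)) = 0`); partition of unity
on `E∖0`; cutoffs at `0`, `∞`; `StCone` for `upper`.  `StIBP`: `X = |y| G₀ χ(ψ/|y|) Y`, `E|y|² = d`.
`StRad`: `Y = e`.

## G2 (`stT1G`, `stT1`, `stTube`): the key family
`ℝ^{n,2} ∋ (y; a, c)`, form `⟪y,y'⟫ - aa' - cc'`.  `ψ'` = signed distance to `C' = Φ''C` (sign of
`ψ∘Φ⁻¹`), `δ(y) = arcsin ψ'(ŷ)`, `|sin δ| ≤ κ`, `Γ = {(ŷ; cos δ, sin δ)}` is achronal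
(`⟪Z,Z'⟫ ≤ 0`).  Boost `B_b`: fixes `a`, `c ↦ γ(c - ⟪b,y⟫)`, `y ↦ y + ((γ-1)⟪b,y⟫/|b|² - γc) b`
(use `(γ-1)/|b|² = γ²/(γ+1)`), `γ = (1-|b|²)^{-1/2}`.  `D b y'` = the `s ∈ (-π/2,π/2)` with
`B_b⁻¹(ŷ'; cos s, sin s) ∈ ℝ₊Γ` (IVT; unique and 1-Lipschitz by achronality; continuous by
uniqueness + compactness); `γ|sin s + ⟪b,ŷ'⟫| ≤ cos s · κ/√(1-κ²)`.  Nearest point `x = Φ y`:
`Z = cos δ X + sin δ 𝒩`, `X = (x̂;1,0)`, `𝒩 = (N;0,1)`, so `y' = Y(y,s)` = spatial part of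
`|x|(cos s · B X + q · B𝒩)`, `q = qf b s x̂ N`, `q/cos s = tan δ`, and `Lop` is PSD on `ν^⊥`.
Lorentz invariance: `|dY v|² = |Lv|² + (p⁻²-1)⟪x̂,Lv⟫²`, `|∂_sY| = |x|`, orthogonal ⇒ Jacobian
`|x|·Jac`.  Area inequality (`addHaar_image_le_lintegral_abs_det_fderiv`, weighted; see `R74`) in
graph patches.  `stT1`: `Φ = id`, `N = ν`, AM–GM `det ≤ p^d` as `tr hess ψ = 0`.

## H1 (`stT2`, `stSY2`): two-point maximum principle
Calculus of `ψ`: `hess ψ ν = 0`, `∂_ν hess = -hess²`, on `C`: `Δ_C φ = lap φ - ⟪ν, hess φ ν⟫`,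
`β_a = ⟪a,ν⟫`, `ξ_a = ⟪a,x⟫`: `Δ_Cβ = -|hess|²β`, `Δ_Cξ = 0` (on the link `Δξ = -mξ`).
`k(x) = sup_{y∈Σ∖x} |⟪ν x,y⟫|/(1-⟪x,y⟫) > 0` (`StRad`), `k ≥ |h_i|`.  Lower supports of `log k`
at `x₀` with `Δ ≥ m - |A|²`: contact `y₀ ≠ x₀`: `R` = reflection in `ω = (x₀-y₀)/|·|`,
`y(x) = proj(Rx)`; `ψ∘R` vanishes with gradient and Laplacian at `x₀`, so one may use `Rx`:
`φ = |β_ω|/ξ_ω`, `Δ log φ = m - |A|² + (k²|ω^T|² - |Aω^T|²)/β²`.  Diagonal contact (`k = |h₁|`,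
eigenvector `e`): `φ = |hess ψ e|/|e^T|` (`≤ k`), `D³ψ[e,e,e] = 0` (third derivative of
`k(1-⟪x₀,y⟫) ∓ ⟪ν₀,y⟫ ≥ 0` along a curve), `|S|² ≥ 2|Se|²` for `S = ∇_eA`, and
`Δ_C hess = -|A|² hess - 2 hess³` on tangent vectors.  Integration: symmetric kernel
`∬χ(x)χ(y)G_r(x,y)(g y - g x) = 0`, trapezoid rule + IBP + `th → 1` for the pointwise liminf, Fatou
with the uniform bound from semiconvexity of `log k` (supports `y(x) = proj(x + y₀ - x₀)`, divided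
differences of `ψ` and `proj` have uniform C² bounds).  `stSY2`: `hess ψ = 0` when `n = 3`.

## H2 (`stRig`)
`Q' = Q + m‖·‖²`, `Q'(·,β_a) = 0`.  `β_a ≡ 0 ⇒ a = 0` (stationarity ⇒ `C + ta = C`; `C - a` is a
cone smooth at its vertex ⇒ flat).  For `T(α,β,c) = α + βg + β_c` the linear map
`z ↦ Q(Tz, affine)` from `ℝ²×E` to `ℝ×E` has a kernel.  Hersch (Brouwer): `v` with `∫|A|²F_v = 0`,
`F_v = (x̂ boosted)/f`, `f = γ(1-⟪v,x̂⟫)`, `|dF_v|² = m/f²`,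
`(1+β²)/f² = 1 + (2/m)Δ log f - (1-2/m)|∇log f|²`.  So `Q'(F^i) ≥ 0`, sum ⇒ `∫|A|² ≤ mΘ - m∫β²/f²`;
with T2: `v = 0`, `Q'(ξ_a) = 0`, hence `ξ_a = β_{c(a)}`, `ν = Bx̂`; `B` symmetric, two eigenvalues
`μ, -1/μ`, `C` ⊂ Clifford cone, open and closed in it; `StTube` with `G = 1_{(-η,η)}` and bipolar
coordinates (`integral_fun_norm_addHaar`) give `cliffordVolume/unitSphereArea ≤ Th`.

## P (`stPush`)
`Φ_s = id + sX`, `X = χ(ψ/|y|)|y| f ν` (1-homogeneous, globally Lipschitz ⇒ homeomorphism by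
`ApproximatesLinearOn`), `N_s = normalise((DΦ_s^*)⁻¹ν)`.  For PSD symmetric `T = p - qS_s`:
`det T ≤ (τ² - c|T°|²)^{d/2}`, `τ = tr T/d` (any `c > 0`).  `tr S_s = ∓ s Lf + O(s²)`,
`∫ gk(Φ_s)·det L₁ = Th + ½s²Q(f) + o(s²)` (homogeneity turns `|Φ_s y| = |y|√(1+s²f²)` into a factor
`(1+s²f²)^{-d/2}`).  Small `(b,t)`: `q = t + ξ_b + O(|z|²)`, cross term `O(s|z|² + s²|z|)` by
`Q`-orthogonality; gain `-c t² - c∫q²|A|²`.  All `(b,t)`: `|q| ≥ |sin t/γ + cos t ξ_b|/2`,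
`|q| ≤ Wp`, and `∫|A|²φ² > 0` for affine `φ ≠ 0` (T2 ⇒ `A ≢ 0`).

## J1 (`stBridge`), J2 (`stJB`, `stNum`, `stK1`)
J1: charts `F̃ = F∘chart⁻¹`; finite cover by open `U_α` on which `F` is injective, measurable
partition `S_α ⊂ U_α`, `vol = Σ (F|S_α)^*μHE ≤ μHE_M` (`F` is 1-Lipschitz for the path metric);
cone varifold `V` from `(r,p) ↦ rF̃ p` (`StArea`, Jacobian `r^m√g`); stationarity by a smooth
partition of unity on `M` and IBP in charts (divergence form of `laplaceBeltrami`; minimality at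
other points of a chart via the normal part of `tr_g D²F̃`); each preimage contributes density `1`,
`StMono`+`StCone` ⇒ `F` injective as `th < 2`.  `LocAt` from the inverse function theorem
(differentiate `f∘F̃ = 0` twice), `StJB`, `StDist`; `Flat ⇒` totally geodesic.
J2: `stJB` by a `ℤˣ`-covering (`FiberBundleCore`, `IsCoveringMap` lifting) over `E` minus a ray, or
a direct monodromy argument.  `stNum`: `λ_j = |S^j|(j/2πe)^{j/2}`, `Θ(k,l) = λ_kλ_l/λ_{k+l}`,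
log-convexity of `λ` (`q_j = λ_{j+2}λ_j/λ_{j+1}²`, `q_{j+2} ≤ q_j`, `q_j → 1`), `Θ(1,1) = π/2`.
`stK1`: finitely many rays, `Th = N/2`, `N` even (sign changes of `ψ` on the circle), `N = 2`
balanced by stationarity.
-/
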