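import Crest.Agent.R246.Asm
import Crest.Agent.R246.A.Main
import Crest.Agent.R246.B1.Main
import Crest.Agent.R246.B2.Main
import Crest.Agent.R246.C1.Main
import Crest.Agent.R246.C2.Main
import Crest.Agent.R246.D.Main
import Crest.Agent.R246.F1.Main
import Crest.Agent.R246.F2.Main
import Crest.Agent.R246.G1.Main
import Crest.Agent.R246.G2.Main
import Crest.Agent.R246.H1.Main
import Crest.Agent.R246.H2.Main
import Crest.Agent.R246.P.Main
import Crest.Agent.R246.J1.Main
import Crest.Agent.R246.J2.Main

/-! Row 246: all blocks together. -/

set_option autoImplicit false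

namespace Crest.Agent.R246

theorem blocks : Blocks :=
  have hG := geo bas
  { one := stOne bas
    flat := stFlat bas
    k0 := stK0
    tan := stTan bas
    all := stAll bas
    reg := stReg bas hG.area stSch
    t1 := stT1 hG
    rig := stRig bas hG (stT2 hG) (stTube hG)
    k1 := stK1
    sy2 := stSY2 hG
    push := stPush hG (stT2 hG) (stT1G hG)
    crit := stCrit
    lim := stLim bas (stQ stAC)
    num := stNum }

theorem bridge.{u} : StBridge.{u} := stBridge bas (geo bas).area stDist stJB

end Crest.Agent.R246
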